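import Vale.Agent.P022.H542.Appl2
import Vale.Agent.P022.H565.Fre
import Vale.Agent.P022.H953.CPT
import Vale.Agent.P022.H494.PsiOf
import Vale.Agent.P022.H48.Fsum
import Vale.Agent.P022.H20.Fin2

/-! # P022-CFT, [APPL], third part: from FCH to ARTG; the Hecke character of an odd induced
representation (helper542) -/

open NumberField UniqueFactorizationMonoid Module IsDedekindDomain

set_option linter.unusedSectionVars false

noncomputable section

namespace Vale.Agent.P022.H542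

open Vale.Agent.P022 Vale.Agent.P022.H20 Vale.Agent.P022.H916 Vale.Agent.P022.C

section

variable {K : Type} [Field K] [NumberField K]

/-- a multiplicative function at a principal ideal -/
lemma prod_eq {A : Type} [CommGroup A] (F : Ideal (𝓞 K) → A) {α : 𝓞 K} (hα : α ≠ 0) :
    ((normalizedFactors (Ideal.span {α})).map F).prod =
      ∏ᶠ v : HeightOneSpectrum (𝓞 K), F v.asIdeal ^ (ordv v (α : K)) := by
  classical
  have h0 : Ideal.span {α} ≠ 0 := by
    rw [Ne, Ideal.zero_eq_bot, Ideal.span_singleton_eq_bot]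
    exact hα
  let Ψ : Ideal (𝓞 K) →* WithZero A :=
    { toFun := fun I => if I = 0 then 0 else ((((normalizedFactors I).map F).prod : A) : WithZero A)
      map_one' := by
        rw [if_neg one_ne_zero, normalizedFactors_one]
        simp
      map_mul' := fun I J => by
        by_cases hI : I = 0
        · simp [hI]
        · by_cases hJ : J = 0
          · simp [hJ]
          · rw [if_neg (mul_ne_zero hI hJ), if_neg hI, if_neg hJ, normalizedFactors_mul hI hJ,
              Multiset.map_add, Multiset.prod_add, WithZero.coe_mul] }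
  have hΨ : ∀ I, I ≠ 0 → Ψ I = ((((normalizedFactors I).map F).prod : A) : WithZero A) :=
    fun I hI => if_neg hI
  have h1 : Ψ (Ideal.span {α}) =
      ∏ᶠ v : HeightOneSpectrum (𝓞 K), Ψ (v.maxPowDividing (Ideal.span {α})) := by
    conv_lhs => rw [← Ideal.finprod_heightOneSpectrum_factorization h0]
    exact MonoidHom.map_finprod Ψ (Ideal.hasFiniteMulSupport h0)
  have h2 : ∀ v : HeightOneSpectrum (𝓞 K), Ψ (v.maxPowDividing (Ideal.span {α})) =
      ((F v.asIdeal ^ (ordv v (α : K)) : A) : WithZero A) := by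
    intro v
    have hp : Ψ v.asIdeal = (F v.asIdeal : WithZero A) := by
      rw [hΨ _ v.ne_bot, normalizedFactors_irreducible v.irreducible]
      simp
    rw [HeightOneSpectrum.maxPowDividing, map_pow, hp, ordv]
    have h3 : v.valuation K (α : K) = WithZero.exp
        (-((Associates.mk v.asIdeal).count (Associates.mk (Ideal.span {α})).factors : ℤ)) := by
      rw [← v.intValuationDef_if_neg hα]
      exact v.valuation_of_algebraMap α
    rw [h3, WithZero.log_exp, neg_neg, zpow_natCast, WithZero.coe_pow]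
  have hfin : (Function.mulSupport fun v : HeightOneSpectrum (𝓞 K) =>
      F v.asIdeal ^ (ordv v (α : K))).Finite := by
    refine (H48.finite_supp hα).subset fun v hv => ?_
    intro h
    apply hv
    change F v.asIdeal ^ (ordv v (α : K)) = 1
    rw [h, zpow_zero]
  have h4 : (∏ᶠ v : HeightOneSpectrum (𝓞 K),
      ((F v.asIdeal ^ (ordv v (α : K)) : A) : WithZero A)) =
      ((∏ᶠ v : HeightOneSpectrum (𝓞 K), F v.asIdeal ^ (ordv v (α : K)) : A) : WithZero A) :=
    (MonoidHom.map_finprod (WithZero.coeMonoidHom (α := A)) hfin).symm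
  rw [hΨ _ h0, finprod_congr h2, h4] at h1
  exact WithZero.coe_injective h1

lemma toAdd_finprod {ι : Type} {n : ℕ} (x : ι → Multiplicative (ZMod n))
    (hx : (Function.mulSupport x).Finite) :
    Multiplicative.toAdd (∏ᶠ i, x i) = ∑ᶠ i, Multiplicative.toAdd (x i) := by
  classical
  rw [finprod_eq_prod_of_mulSupport_subset (s := hx.toFinset) _ (by simp),
    finsum_eq_sum_of_support_subset (s := hx.toFinset) _ (by
      intro i hi
      simp only [Set.Finite.coe_toFinset]
      exact fun h => hi h)]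
  rfl

/-- every divisor condition on primes gives divisibility by a power -/
lemma dvd_pow_self' {m B : ℕ} (hm : m ≠ 0) (hB : B ≠ 0) (h : ∀ p : ℕ, p.Prime → p ∣ m → p ∣ B) :
    m ∣ B ^ m := by
  rw [← Nat.factorization_prime_le_iff_dvd hm (pow_ne_zero m hB)]
  intro p hp
  rw [Nat.factorization_pow]
  by_cases hpm : p ∣ m
  · have h1 : 1 ≤ B.factorization p :=
      (hp.dvd_iff_one_le_factorization hB).1 (h p hp hpm)
    have h2 : m.factorization p ≤ m := (Nat.factorization_lt p hm).le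
    simp only [Finsupp.smul_apply, smul_eq_mul]
    nlinarith
  · rw [Nat.factorization_eq_zero_of_not_dvd hpm]
    exact Nat.zero_le _

/-- **from [FCH] to `ARTG`** -/
theorem artg_of_fch (hF : FCHStmt) (j : K →+* Qb) : ARTG j := by
  classical
  intro l a hl φ hφ B hB f hatt
  obtain ⟨m, hm0, hm1, hm2, law⟩ := hF K j (l ^ a) (pow_pos hl.pos a) φ (by
    have : {g : GK j | φ g = 1} = (φ.ker : Set (GK j)) := rfl
    rw [this]; exact hφ)
  have hmB : m ∣ B ^ m := by
    refine dvd_pow_self' hm0 hB fun p hp hpm => ?_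
    by_contra hpB
    obtain ⟨P, hP, hpP, g, hg, hne⟩ := hm1 p hp hpm
    exact hne ((hatt p hp hpB P hP hpP g).1 hg)
  choose Pv gv hgv using fun v : HeightOneSpectrum (𝓞 K) => H565.fre_exists (j := j) v
  choose cv hcv using fun s : K →+* ℝ => H565.fre_conj_exists (j := j) s
  refine ⟨m + 1, fun α hα hd hpos => ?_⟩
  have hd' : (m : 𝓞 K) ∣ α - 1 :=
    (Nat.cast_dvd_cast (hmB.trans (pow_dvd_pow B (Nat.le_succ m)))).trans hd
  have key := law (fun v => Multiplicative.toAdd (φ (gv v)))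
    (by
      intro v P g hmv hg
      rw [H565.fre_unique (j := j) φ v ?_ P (Pv v) g (gv v) hg (hgv v)]
      intro Q hQ hQv g' hg'
      apply hm2 Q hQ
      · rintro rfl
        apply v.ne_bot
        rw [← hQv, below, ← RingHom.ker_eq_comap_bot, ← RingHom.injective_iff_ker_eq_bot]
        intro x y hxy
        have h' := congrArg (algebraMap (𝓞 Qb) Qb) hxy
        apply RingOfIntegers.ext
        exact j.injective h'
      · intro hmQ
        apply hmv
        rw [← hQv]
        exact l_mem_below j hmQ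
      · exact hg')
    (fun s => Multiplicative.toAdd (φ (cv s)))
    (by
      intro s g hg
      rw [H565.fre_conj (j := j) φ s g (cv s) hg (hcv s)]) α hα hd'
  have hz : ∑ᶠ s ∈ {s : K →+* ℝ | s (α : K) < 0}, Multiplicative.toAdd (φ (cv s)) = 0 := by
    apply finsum_mem_eq_zero_of_forall_eq_zero
    intro s hs
    by_contra hne
    obtain ⟨Φ, hΦ1, hΦ2⟩ := hcv s
    have h1 : φ (cv s) ≠ 1 := fun h => hne (by rw [h]; rfl)
    have h2 := hpos Φ (cv s) hΦ2 h1 s hΦ1
    have h3 : s (α : K) < 0 := hs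
    linarith
  rw [hz, add_zero] at key
  rw [prod_eq f hα]
  apply Multiplicative.toAdd.injective
  rw [toAdd_finprod, toAdd_one, ← key]
  · refine finsum_congr fun v => ?_
    by_cases hv0 : ordv v (α : K) = 0
    · rw [hv0]; simp
    · have hαv : α ∈ v.asIdeal := by
        by_contra h
        exact hv0 (H48.ordv_of_notMem α v h)
      obtain ⟨ℓ, hℓ, hℓv⟩ := exists_nat v.asIdeal v.isPrime v.ne_bot
      have hBv : ¬ ℓ ∣ B := by
        rintro ⟨c, rfl⟩
        apply v.isPrime.one_notMem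
        have h2 : ((((ℓ * c) ^ (m + 1) : ℕ)) : 𝓞 K) ∈ v.asIdeal := by
          rw [Nat.cast_pow]
          refine Ideal.pow_mem_of_mem _ ?_ _ (Nat.succ_pos m)
          rw [Nat.cast_mul]
          exact Ideal.mul_mem_right _ _ hℓv
        have h3 := Ideal.mem_of_dvd _ hd h2
        have h4 := v.asIdeal.sub_mem hαv h3
        simpa using h4
      obtain ⟨hP, hPv, hfr⟩ := hgv v
      have hℓP : (ℓ : 𝓞 Qb) ∈ Pv v := by
        have : (ℓ : 𝓞 K) ∈ below j (Pv v) := by rw [hPv]; exact hℓv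
        have h5 := mem_below.1 this
        rwa [map_natCast] at h5
      have h6 := (hatt ℓ hℓ hBv (Pv v) hP hℓP (gv v)).2 (by rw [hPv]; exact hfr)
      rw [hPv] at h6
      rw [h6]
      rfl
  · refine (H48.finite_supp hα).subset fun v hv => ?_
    intro h
    apply hv
    change f v.asIdeal ^ (ordv v (α : K)) = 1
    rw [h, zpow_zero]

end

section

variable {K : Type} [Field K] [NumberField K]

/-- **the signs**: an odd representation induced from a real quadratic field is of mixed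
signature -/
theorem conj_signs (h2 : finrank ℚ K = 2) {σ₁ σ₂ : K →+* ℝ} (hne : σ₁ ≠ σ₂) (j : K →+* Qb)
    {E : Type} [Field E] {χ : GK j →* Eˣ} {r : GQ →* GL (Fin 2) E} (hr : IsInd j χ r)
    (hodd : OddRep r) :
    ((∀ g, CjI j σ₁ g → χ g = -1) ∧ (∀ g, CjI j σ₂ g → χ g = 1)) ∨
    ((∀ g, CjI j σ₂ g → χ g = -1) ∧ (∀ g, CjI j σ₁ g → χ g = 1)) := by
  obtain ⟨c, hc, hfacts, -⟩ := ind_facts h2 hr
  obtain ⟨g₁, hg₁⟩ := H565.fre_conj_exists (j := j) σ₁
  have hg₁' := hg₁
  obtain ⟨Φ, hΦ1, hΦ2⟩ := hg₁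
  have hconj : IsConj (g₁ : GQ) := ⟨Φ, hΦ2⟩
  have hdet := (hfacts g₁ g₁.2).2.1
  rw [hodd _ hconj] at hdet
  set g' : GK j := ⟨c⁻¹ * ((g₁ : GQ) * c), conj_mem h2 hc g₁.2⟩ with hg'
  -- `g'` is a conjugation at `σ₂`
  let Φ' : Qb →+* ℂ := Φ.comp (c : Qb →+* Qb)
  have hΦ' : ∀ x, Φ' x = Φ (c x) := fun _ => rfl
  have hcj : ∀ x : Qb, Φ' ((g' : GQ) x) = starRingEnd ℂ (Φ' x) := by
    intro x
    have h1 : c ((g' : GQ) x) = (g₁ : GQ) (c x) := by
      have h3 : (c * (c⁻¹ * ((g₁ : GQ) * c)) : GQ) = (g₁ : GQ) * c := by group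
      have h4 := congrArg (fun g : GQ => g x) h3
      exact h4
    rw [hΦ', hΦ', h1, hΦ2]
  have hreal : ∀ x : K, starRingEnd ℂ (Φ' (j x)) = Φ' (j x) := by
    intro x
    rw [← hcj, g'.2 x]
  have hre : ∀ x : K, (((Φ' (j x)).re : ℝ) : ℂ) = Φ' (j x) := fun x =>
    Complex.conj_eq_iff_re.1 (hreal x)
  let σ' : K →+* ℝ :=
    { toFun := fun x => (Φ' (j x)).re
      map_one' := by simp
      map_zero' := by simp
      map_add' := fun x y => by simp
      map_mul' := fun x y => by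
        apply Complex.ofReal_injective
        push_cast
        rw [hre, hre, hre, map_mul, map_mul] }
  have hσ' : ∀ x : K, Φ' (j x) = (σ' x : ℂ) := fun x => (hre x).symm
  have hne' : σ' ≠ σ₁ := by
    intro h
    apply hc
    intro x
    apply Φ.injective
    have h3 := hσ' x
    rw [h, ← hΦ1 x] at h3
    exact h3
  have hσ2 : σ' = σ₂ := (H542.emb_two h2 hne σ').resolve_left hne'
  have hg'2 : CjI j σ₂ g' := ⟨Φ', fun x => by rw [hσ' x, hσ2], hcj⟩
  have hsq : χ g₁ * χ g₁ = 1 := by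
    rw [← map_mul]
    have h3 : g₁ * g₁ = 1 := by
      apply Subtype.ext
      exact conj_sq hconj
    rw [h3, map_one]
  have hpm : χ g₁ = 1 ∨ χ g₁ = -1 := by
    have h3 : ((χ g₁ : Eˣ) : E) * ((χ g₁ : Eˣ) : E) = 1 := by
      rw [← Units.val_mul, hsq, Units.val_one]
    rcases mul_self_eq_one_iff.1 h3 with h | h
    · exact Or.inl (Units.ext h)
    · exact Or.inr (Units.ext (by rw [h]; simp))
  have hdet' : χ g₁ * χ g' = -1 := by
    apply Units.ext
    rw [Units.val_mul]
    refine Eq.trans ?_ (hdet.symm.trans ?_)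
    · rfl
    · simp
  rcases hpm with h | h
  · right
    rw [h, one_mul] at hdet'
    exact ⟨fun g hg => (H565.fre_conj (j := j) χ σ₂ g g' hg hg'2).trans hdet',
      fun g hg => (H565.fre_conj (j := j) χ σ₁ g g₁ hg hg₁').trans h⟩
  · left
    rw [h] at hdet'
    have h3 : χ g' = 1 := by
      have h4 : -(-1 * χ g') = -(-1 : Eˣ) := congrArg (fun z => -z) hdet'
      simpa using h4
    exact ⟨fun g hg => (H565.fre_conj (j := j) χ σ₁ g g₁ hg hg₁').trans h,
      fun g hg => (H565.fre_conj (j := j) χ σ₂ g g' hg hg'2).trans h3⟩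

/-- a field without real embeddings is totally complex -/
lemma totallyComplex_of (h : IsEmpty (K →+* ℝ)) : NumberField.IsTotallyComplex K := by
  refine ⟨fun w => ?_⟩
  rw [← InfinitePlace.not_isReal_iff_isComplex]
  rintro ⟨φ, hφ, -⟩
  exact h.elim hφ.embedding

lemma attached_of_dvd {E : Type} [Field E] {j : K →+* Qb} {χ : GK j →* Eˣ} {ψ : Ideal (𝓞 K) → E}
    {B B' : ℕ} (h : Attached j χ ψ B) (hd : ∀ p : ℕ, p.Prime → p ∣ B → p ∣ B') :
    Attached j χ ψ B' :=
  fun ℓ hℓ hB => h ℓ hℓ (fun hd' => hB (hd ℓ hℓ hd'))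

/-- **the Hecke character of an odd representation induced from a quadratic field**, given
reciprocity for the characters of `G_K` of finite order -/
theorem hecke_of_ind (j : K →+* Qb) (hA : ARTG j) (h2 : finrank ℚ K = 2)
    {E E' : Type} [Field E] [NontriviallyNormedField E'] [NormedAlgebra ℚ_[2] E']
    [IsUltrametricDist E'] [Algebra E E'] {χ : GK j →* E'ˣ} (hχ : Continuous χ)
    {r : GQ →* GL (Fin 2) E} (hr : IsInd j χ (bc E' r)) (hodd : OddRep r) (S : Finset ℕ)
    (hS : ∀ p : ℕ, p.Prime → p ∉ S → UnrAt r p) :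
    ∃ (m : ℕ) (ψ : Ideal (𝓞 K) →* E'), Odd m ∧ (∀ p : ℕ, p.Prime → p ∣ m → ¬ UnrAt r p) ∧
      HeckeChar m ψ ∧ ∀ N : ℕ, m ∣ N → Attached j χ ψ (2 * N) := by
  classical
  set T := S.filter (fun p => p.Prime ∧ p ≠ 2 ∧ ¬ UnrAt r p) with hT
  set P := ∏ p ∈ T, p with hP
  have hPodd : Odd P := by
    rw [hP]
    refine Finset.prod_induction _ Odd (fun a b ha hb => ha.mul hb) odd_one ?_
    intro p hp
    rw [hT, Finset.mem_filter] at hp
    exact hp.2.1.odd_of_ne_two hp.2.2.1
  have hPr : ∀ p : ℕ, p.Prime → p ∣ P → ¬ UnrAt r p := by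
    intro p hp hd
    rw [hP] at hd
    obtain ⟨q, hq, hpq⟩ := (Prime.dvd_finsetProd_iff hp.prime _).1 hd
    rw [hT, Finset.mem_filter] at hq
    rw [(Nat.prime_dvd_prime_iff_eq hp hq.2.1).1 hpq]
    exact hq.2.2.2
  have hunr : ∀ p : ℕ, p.Prime → ¬ p ∣ 2 * P → UnrAt r p := by
    intro p hp hd
    by_contra hn
    have hpS : p ∈ S := by
      by_contra h
      exact hn (hS p hp h)
    have hpT : p ∈ T := by
      rw [hT, Finset.mem_filter]
      refine ⟨hpS, hp, ?_, hn⟩
      rintro rfl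
      exact hd (dvd_mul_right _ _)
    exact hd ((Finset.dvd_prod_of_mem _ hpT).mul_left 2)
  have hUO : H494.UnrOut j χ (2 * P) := by
    intro ℓ hℓ hd Q hQ hℓQ g hg
    by_contra hne
    exact H916.ramified_of_char j hr hQ hℓQ hg hne (bc_unrAt.2 (hunr ℓ hℓ hd))
  have hn : ∀ h, ‖(χ h : E')‖ = 1 := fun h => H953.CPT K j E' χ hχ h
  obtain ⟨f, ψ, -, -, -, -, hatt⟩ := H494.psi_of j χ hn (2 * P) hUO
  have hoddb : OddRep (bc E' r) := bc_odd.2 hodd
  obtain ⟨k, hk1, hk⟩ : ∃ k : ℕ, 1 ≤ k ∧ HeckeChar (P ^ k) ψ := by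
    by_cases hne : Nonempty (K →+* ℝ)
    · obtain ⟨τ₁⟩ := hne
      obtain ⟨τ₂, hτ⟩ := exists_real h2 τ₁
      have main : ∀ σ₁ σ₂ : K →+* ℝ, σ₁ ≠ σ₂ → (∀ g, CjI j σ₁ g → χ g = -1) →
          (∀ g, CjI j σ₂ g → χ g = 1) → ∃ k : ℕ, 1 ≤ k ∧ HeckeChar (P ^ k) ψ := by
        intro σ₁ σ₂ hσ h1 h3
        obtain ⟨k₀, hk₀⟩ := contR j h2 hσ hA hχ hPodd hatt
          (fun ι c hc hι => h1 c ⟨ι, hι, hc⟩) (fun ι c hc hι => h3 c ⟨ι, hι, hc⟩)
        refine ⟨k₀ + 1, Nat.le_add_left _ _, Or.inr ⟨σ₁, fun ε hε => ?_⟩⟩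
        exact hk₀ (k₀ + 1) (Nat.le_succ _) ε hε
      rcases conj_signs h2 hτ j hr hoddb with ⟨h1, h3⟩ | ⟨h1, h3⟩
      · exact main τ₁ τ₂ hτ h1 h3
      · exact main τ₂ τ₁ hτ.symm h1 h3
    · have hK : NumberField.IsTotallyComplex K := totallyComplex_of (not_nonempty_iff.1 hne)
      obtain ⟨k₀, hk₀⟩ := cont2 j hA hχ hPodd hatt
      exact ⟨k₀ + 1, Nat.le_add_left _ _, Or.inl ⟨hK, fun ε hε =>
        hk₀ (k₀ + 1) (Nat.le_succ _) ε hε⟩⟩
  refine ⟨P ^ k, ψ, hPodd.pow, fun p hp hd => hPr p hp (hp.dvd_of_dvd_pow hd), hk, ?_⟩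
  intro N hN
  refine attached_of_dvd hatt fun p hp hd => ?_
  rcases (Nat.Prime.dvd_mul hp).1 hd with h | h
  · exact h.mul_right _
  · exact (h.trans ((dvd_pow_self P (by omega)).trans hN)).mul_left 2

end

end Vale.Agent.P022.H542
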