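import Vale.Agent.P022.H20.Frob

/-! # P022-CFT, [APPL]: from Artin reciprocity for cyclic characters to Hecke characters
(helper542) -/

open NumberField UniqueFactorizationMonoid

noncomputable section

namespace Vale.Agent.P022.H542

open Vale.Agent.P022 Vale.Agent.P022.H20 Vale.Agent.P022.H916

/-! ### the interface -/

/-- the sign condition: `α` is positive at the real place `σ` of `K` if the complex conjugations
at `σ` act non trivially through `χ` -/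
def PosAt {K : Type} [Field K] (j : K →+* Qb) {A : Type*} [Group A] (χ : GK j →* A)
    (α : K) : Prop :=
  ∀ (ι : Qb →+* ℂ) (c : GK j), (∀ x, ι ((c : GQ) x) = starRingEnd ℂ (ι x)) → χ c ≠ 1 →
    ∀ σ : K →+* ℝ, (∀ x, ι (j x) = (σ x : ℂ)) → 0 < σ α

/-- `f` gives the values of `χ` on the Frobenius elements, away from `B` (and `χ` is unramified
there) -/
def Att {K : Type} [Field K] [NumberField K] (j : K →+* Qb) {A : Type*} [Group A]
    (χ : GK j →* A) (f : Ideal (𝓞 K) → A) (B : ℕ) : Prop :=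
  ∀ ℓ : ℕ, ℓ.Prime → ¬ ℓ ∣ B → ∀ P : Ideal (𝓞 Qb), P.IsPrime → (ℓ : 𝓞 Qb) ∈ P → ∀ g : GK j,
    ((∀ x : 𝓞 Qb, (g : GQ) • x - x ∈ P) → χ g = 1) ∧
    ((∀ x : 𝓞 Qb, (g : GQ) • x - x ^ Ideal.absNorm (below j P) ∈ P) →
      χ g = f (below j P))

/-- Artin reciprocity for cyclic characters of prime power order, in the letters of `G_ℚ` -/
def ARTG {K : Type} [Field K] [NumberField K] (j : K →+* Qb) : Prop :=
  ∀ (l a : ℕ), l.Prime → ∀ φ : GK j →* Multiplicative (ZMod (l ^ a)),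
    IsOpen (φ.ker : Set (GK j)) → ∀ B : ℕ, B ≠ 0 →
    ∀ f : Ideal (𝓞 K) → Multiplicative (ZMod (l ^ a)), Att j φ f B →
    ∃ M : ℕ, ∀ α : 𝓞 K, α ≠ 0 → ((B ^ M : ℕ) : 𝓞 K) ∣ α - 1 → PosAt j φ (α : K) →
      ((normalizedFactors (Ideal.span {α})).map f).prod = 1

/-! ### finite abelian groups -/

lemma chars (Q : Type) [CommGroup Q] [Finite Q] :
    ∃ (ι : Type) (_ : Fintype ι) (p : ι → ℕ) (_ : ∀ i, (p i).Prime) (e : ι → ℕ)
      (θ : ∀ i, Q →* Multiplicative (ZMod (p i ^ e i))), ∀ x, (∀ i, θ i x = 1) → x = 1 := by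
  obtain ⟨ι, hι, p, hp, e, ⟨E⟩⟩ := AddCommGroup.equiv_directSum_zmod_of_finite (Additive Q)
  refine ⟨ι, hι, p, hp, e, fun i => ⟨⟨fun x => Multiplicative.ofAdd (E (Additive.ofMul x) i), ?_⟩,
    ?_⟩, ?_⟩
  · simp
  · intro x y
    change Multiplicative.ofAdd (E (Additive.ofMul (x * y)) i) = _
    rw [ofMul_mul, map_add, DirectSum.add_apply, ofAdd_add]
  · intro x h
    have h1 : E (Additive.ofMul x) = 0 := by
      refine DFinsupp.ext fun i => ?_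
      have := h i
      exact Multiplicative.ofAdd.injective this
    have h2 : Additive.ofMul x = 0 := E.injective (by rw [h1, map_zero])
    exact Additive.ofMul.injective h2

/-! ### neighbourhoods of `1` -/

section

variable {E : Type} [NontriviallyNormedField E] [IsUltrametricDist E]

lemma nrm1 {u : E} (h : ‖u - 1‖ < 1) : ‖u‖ = 1 := by
  have h1 : ‖u‖ = ‖(u - 1) + 1‖ := by rw [sub_add_cancel]
  rw [h1, IsUltrametricDist.norm_add_eq_max_of_norm_ne_norm (by rw [norm_one]; exact h.ne),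
    norm_one]
  exact max_eq_right h.le

/-- the ball `{u | ‖u - 1‖ < ε}` as a subgroup, `ε ≤ 1` -/
def ball (ε : ℝ) (h0 : 0 < ε) (h1 : ε ≤ 1) : Subgroup Eˣ where
  carrier := {u | ‖(u : E) - 1‖ < ε}
  one_mem' := by simpa using h0
  mul_mem' := by
    intro u v hu hv
    have hu' : ‖(u : E) - 1‖ < ε := hu
    have hv' : ‖(v : E) - 1‖ < ε := hv
    change ‖((u * v : Eˣ) : E) - 1‖ < ε
    have : ((u * v : Eˣ) : E) - 1 = u * (v - 1) + (u - 1) := by push_cast; ring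
    rw [this]
    refine lt_of_le_of_lt (IsUltrametricDist.norm_add_le_max _ _) (max_lt ?_ hu')
    rw [norm_mul, nrm1 (hu'.trans_le h1), one_mul]
    exact hv'
  inv_mem' := by
    intro u hu
    have hu' : ‖(u : E) - 1‖ < ε := hu
    change ‖((u⁻¹ : Eˣ) : E) - 1‖ < ε
    have h2 : ((u⁻¹ : Eˣ) : E) - 1 = -((u⁻¹ : Eˣ) : E) * (u - 1) := by
      have := Units.inv_mul u
      linear_combination this
    rw [h2, norm_mul, norm_neg, Units.val_inv_eq_inv_val, norm_inv, nrm1 (hu'.trans_le h1),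
      inv_one, one_mul]
    exact hu'

lemma mem_ball {ε : ℝ} (h0 : 0 < ε) (h1 : ε ≤ 1) (u : Eˣ) :
    u ∈ ball (E := E) ε h0 h1 ↔ ‖(u : E) - 1‖ < ε := Iff.rfl

lemma isOpen_ball {ε : ℝ} (h0 : 0 < ε) (h1 : ε ≤ 1) :
    IsOpen (ball (E := E) ε h0 h1 : Set Eˣ) := by
  have : (ball (E := E) ε h0 h1 : Set Eˣ) = (fun u : Eˣ => ‖(u : E) - 1‖) ⁻¹' Set.Iio ε := rfl
  rw [this]
  exact isOpen_Iio.preimage ((Units.continuous_val.sub continuous_const).norm)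

end

/-! ### the crude form -/

section

variable {K : Type} [Field K] [NumberField K] (j : K →+* Qb)

omit [NumberField K] in
/-- a prime ideal of `𝓞 K` is below a prime of `𝓞 ℚ̄` -/
lemma exists_above (𝔭 : Ideal (𝓞 K)) (h𝔭 : 𝔭.IsPrime) :
    ∃ P : Ideal (𝓞 Qb), P.IsPrime ∧ below j P = 𝔭 := by
  let _ := algj j
  have hinj : Function.Injective (algebraMap (𝓞 K) (𝓞 Qb)) := by
    intro x y h
    have h' := congrArg (algebraMap (𝓞 Qb) Qb) h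
    apply RingOfIntegers.ext
    exact j.injective h'
  have hint : Algebra.IsIntegral (𝓞 K) (𝓞 Qb) := by
    refine ⟨fun x => ?_⟩
    obtain ⟨q, hq, hx⟩ := RingOfIntegers.isIntegral x
    refine ⟨q.map (algebraMap ℤ (𝓞 K)), hq.map _, ?_⟩
    rw [Polynomial.eval₂_map]
    have : (algebraMap (𝓞 K) (𝓞 Qb)).comp (algebraMap ℤ (𝓞 K)) = algebraMap ℤ (𝓞 Qb) :=
      RingHom.ext_int _ _
    rw [this]
    exact hx
  obtain ⟨P, _, hP, h⟩ := Ideal.exists_ideal_over_prime_of_isIntegral 𝔭 (⊥ : Ideal (𝓞 Qb))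
    (by
      rw [← RingHom.ker_eq_comap_bot, (RingHom.injective_iff_ker_eq_bot _).1 hinj]
      exact bot_le)
  exact ⟨P, hP, h⟩

/-- a nonzero prime ideal contains a prime number -/
lemma exists_nat (𝔭 : Ideal (𝓞 K)) (h𝔭 : 𝔭.IsPrime) (h0 : 𝔭 ≠ ⊥) :
    ∃ ℓ : ℕ, ℓ.Prime ∧ (ℓ : 𝓞 K) ∈ 𝔭 := by
  have h1 : ((Ideal.absNorm 𝔭 : ℕ) : 𝓞 K) ∈ 𝔭 := Ideal.absNorm_mem 𝔭
  have h2 : Ideal.absNorm 𝔭 ≠ 0 := by
    rw [Ne, Ideal.absNorm_eq_zero_iff]; exact h0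
  have key : ∀ n : ℕ, n ≠ 0 → (n : 𝓞 K) ∈ 𝔭 → ∃ ℓ : ℕ, ℓ.Prime ∧ (ℓ : 𝓞 K) ∈ 𝔭 := by
    intro n
    induction n using Nat.recOnMul with
    | zero => intro h; exact absurd rfl h
    | one => intro _ h; exact absurd (by simpa using h) h𝔭.one_notMem
    | prime p hp => intro _ h; exact ⟨p, hp, h⟩
    | mul a b ha hb =>
      intro h h'
      rw [Nat.cast_mul] at h'
      rcases h𝔭.mem_or_mem h' with h' | h'
      · exact ha (fun h0 => h (by rw [h0, zero_mul])) h'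
      · exact hb (fun h0 => h (by rw [h0, mul_zero])) h'
  exact key _ h2 h1

open Classical in
/-- a choice of Frobenius elements -/
def Fr (B : ℕ) (𝔭 : Ideal (𝓞 K)) : GK j :=
  if h : ∃ (g : GK j) (ℓ : ℕ) (P : Ideal (𝓞 Qb)), ℓ.Prime ∧ ¬ ℓ ∣ B ∧ P.IsPrime ∧
      (ℓ : 𝓞 Qb) ∈ P ∧ below j P = 𝔭 ∧
      ∀ x : 𝓞 Qb, (g : GQ) • x - x ^ Ideal.absNorm (below j P) ∈ P
  then h.choose else 1

lemma Fr_spec {B : ℕ} {ℓ : ℕ} (hℓ : ℓ.Prime) (hB : ¬ ℓ ∣ B) {P : Ideal (𝓞 Qb)}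
    (hP : P.IsPrime) (hℓP : (ℓ : 𝓞 Qb) ∈ P) :
    ∃ (ℓ' : ℕ) (P' : Ideal (𝓞 Qb)), ℓ'.Prime ∧ ¬ ℓ' ∣ B ∧ P'.IsPrime ∧
      (ℓ' : 𝓞 Qb) ∈ P' ∧ below j P' = below j P ∧
      ∀ x : 𝓞 Qb, (Fr j B (below j P) : GQ) • x - x ^ Ideal.absNorm (below j P') ∈ P' := by
  have h : ∃ (g : GK j) (ℓ' : ℕ) (P' : Ideal (𝓞 Qb)), ℓ'.Prime ∧ ¬ ℓ' ∣ B ∧ P'.IsPrime ∧
      (ℓ' : 𝓞 Qb) ∈ P' ∧ below j P' = below j P ∧
      ∀ x : 𝓞 Qb, (g : GQ) • x - x ^ Ideal.absNorm (below j P') ∈ P' := by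
    obtain ⟨g, hg⟩ := exists_frob j hP hℓ hℓP
    exact ⟨g, ℓ, P, hℓ, hB, hP, hℓP, rfl, hg⟩
  have h2 : Fr j B (below j P) = h.choose := by
    unfold Fr
    rw [dif_pos h]
  rw [h2]
  exact h.choose_spec

section

variable {E : Type} [Field E]

lemma Fr_chi {χ : GK j →* Eˣ} {ψ : Ideal (𝓞 K) → E} {B : ℕ} (hatt : Attached j χ ψ B)
    {ℓ : ℕ} (hℓ : ℓ.Prime) (hB : ¬ ℓ ∣ B) {P : Ideal (𝓞 Qb)}
    (hP : P.IsPrime) (hℓP : (ℓ : 𝓞 Qb) ∈ P) :
    (χ (Fr j B (below j P)) : E) = ψ (below j P) := by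
  obtain ⟨ℓ', P', h1, h2, h3, h4, h5, h6⟩ := Fr_spec j hℓ hB hP hℓP
  have h := (hatt ℓ' h1 h2 P' h3 h4 (Fr j B (below j P))).2 h6
  rw [h, h5]

lemma att_of {χ : GK j →* Eˣ} {ψ : Ideal (𝓞 K) → E} {B : ℕ} (hatt : Attached j χ ψ B)
    {A : Type*} [Group A] (φ : GK j →* A) (hφ : χ.ker ≤ φ.ker) :
    Att j φ (fun 𝔭 => φ (Fr j B 𝔭)) B := by
  intro ℓ hℓ hB P hP hℓP g
  refine ⟨fun h => hφ ((hatt ℓ hℓ hB P hP hℓP g).1 h), fun h => ?_⟩
  have h1 := (hatt ℓ hℓ hB P hP hℓP g).2 h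
  rw [← Fr_chi j hatt hℓ hB hP hℓP] at h1
  have h2 : χ g = χ (Fr j B (below j P)) := Units.ext h1
  have h3 : g * (Fr j B (below j P))⁻¹ ∈ χ.ker := by
    rw [MonoidHom.mem_ker, map_mul, map_inv, h2, mul_inv_cancel]
  have h4 := hφ h3
  rw [MonoidHom.mem_ker, map_mul, map_inv, mul_inv_eq_one] at h4
  exact h4

/-- the value of `ψ` at an ideal prime to `B` -/
lemma psi_eq {χ : GK j →* Eˣ} {ψ : Ideal (𝓞 K) →* E} {B : ℕ} (hatt : Attached j χ ψ B)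
    {k : ℕ} (hk : k ≠ 0) {α : 𝓞 K} (hα : α ≠ 0) (h : ((B ^ k : ℕ) : 𝓞 K) ∣ α - 1) :
    ψ (Ideal.span {α}) =
      (((normalizedFactors (Ideal.span {α})).map (fun 𝔭 => χ (Fr j B 𝔭))).prod : Eˣ) := by
  have hne : Ideal.span {α} ≠ ⊥ := by simpa using hα
  conv_lhs => rw [← Ideal.prod_normalizedFactors_eq_self hne]
  rw [map_multiset_prod, ← Units.coeHom_apply, map_multiset_prod, Multiset.map_map]
  congr 1
  apply Multiset.map_congr rfl
  intro 𝔭 h𝔭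
  have hp := prime_of_normalized_factor 𝔭 h𝔭
  have h0 : 𝔭 ≠ ⊥ := hp.ne_zero
  have hpr : 𝔭.IsPrime := Ideal.isPrime_of_prime hp
  have hα𝔭 : α ∈ 𝔭 := by
    have h1 := dvd_of_mem_normalizedFactors h𝔭
    rw [Ideal.dvd_span_singleton] at h1
    exact h1
  obtain ⟨ℓ, hℓ, hℓ𝔭⟩ := exists_nat 𝔭 hpr h0
  have hB : ¬ ℓ ∣ B := by
    rintro ⟨c, rfl⟩
    apply hpr.one_notMem
    have h2 : ((ℓ * c) ^ k : 𝓞 K) ∈ 𝔭 :=
      Ideal.pow_mem_of_mem _ (Ideal.mul_mem_right _ _ hℓ𝔭) _ (Nat.pos_of_ne_zero hk)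
    obtain ⟨d, hd⟩ := h
    have h3 : (1 : 𝓞 K) = α - ((ℓ * c) ^ k : 𝓞 K) * d := by
      push_cast at hd
      rw [← hd]; ring
    rw [h3]
    exact 𝔭.sub_mem hα𝔭 (Ideal.mul_mem_right _ _ h2)
  obtain ⟨P, hP, rfl⟩ := exists_above j 𝔭 hpr
  have hℓP : (ℓ : 𝓞 Qb) ∈ P := by
    have : RingOfIntegers.mapRingHom j (ℓ : 𝓞 K) ∈ P := hℓ𝔭
    rwa [map_natCast] at this
  exact (Fr_chi j hatt hℓ hB hP hℓP).symm

end

/-- **the crude form**: `ψ((α))` is close to `1` if `α` is close to `1` at the primes dividing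
`B` (and positive at the real places where `χ` is odd) -/
theorem crude {E : Type} [NontriviallyNormedField E] [IsUltrametricDist E]
    (hA : ARTG j) {χ : GK j →* Eˣ} (hχ : Continuous χ) {B : ℕ} (hB : B ≠ 0)
    {ψ : Ideal (𝓞 K) →* E} (hatt : Attached j χ ψ B) {ε : ℝ} (hε : 0 < ε) :
    ∃ k : ℕ, ∀ α : 𝓞 K, α ≠ 0 → ((B ^ k : ℕ) : 𝓞 K) ∣ α - 1 → PosAt j χ (α : K) →
      ‖ψ (Ideal.span {α}) - 1‖ < ε := by
  classical
  have h0 : 0 < min ε 1 := lt_min hε one_pos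
  have h1 : min ε 1 ≤ 1 := min_le_right _ _
  set U := ball (E := E) (min ε 1) h0 h1 with hU
  set Φ : GK j →* Eˣ ⧸ U := (QuotientGroup.mk' U).comp χ with hΦ
  have hker : Φ.ker = U.comap χ := by
    rw [hΦ, ← MonoidHom.comap_ker, QuotientGroup.ker_mk']
  have hopen : IsOpen (Φ.ker : Set (GK j)) := by
    rw [hker]
    exact (isOpen_ball h0 h1).preimage hχ
  have hfin : Finite (GK j ⧸ Φ.ker) := Subgroup.quotient_finite_of_isOpen _ hopen
  have hfin2 : Finite Φ.range :=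
    Finite.of_equiv _ (QuotientGroup.quotientKerEquivRange Φ).toEquiv
  obtain ⟨ι, hι, p, hp, e, θ, hθ⟩ := chars Φ.range
  have hle : ∀ i, Φ.ker ≤ ((θ i).comp Φ.rangeRestrict).ker := by
    intro i g hg
    rw [MonoidHom.mem_ker, MonoidHom.comp_apply]
    have : Φ.rangeRestrict g = 1 := by
      apply Subtype.ext
      exact hg
    rw [this, map_one]
  have hle2 : χ.ker ≤ Φ.ker := by
    intro g hg
    rw [hker, Subgroup.mem_comap, (MonoidHom.mem_ker).1 hg]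
    exact U.one_mem
  choose M hM using fun i => hA (p i) (e i) (hp i) ((θ i).comp Φ.rangeRestrict)
    (Subgroup.isOpen_mono (hle i) hopen) B hB _
    (att_of j hatt ((θ i).comp Φ.rangeRestrict) (hle2.trans (hle i)))
  refine ⟨(∑ i, M i) + 1, fun α hα hd hpos => ?_⟩
  have hx : ((normalizedFactors (Ideal.span {α})).map
      (fun 𝔭 => Φ.rangeRestrict (Fr j B 𝔭))).prod = 1 := by
    apply hθ
    intro i
    rw [map_multiset_prod, Multiset.map_map]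
    apply hM i α hα
    · refine dvd_trans ?_ hd
      apply Nat.cast_dvd_cast
      apply pow_dvd_pow
      exact (Finset.single_le_sum (fun _ _ => Nat.zero_le _) (Finset.mem_univ i)).trans
        (Nat.le_succ _)
    · intro ι' c hc hne
      exact hpos ι' c hc (fun h => hne (hle i (hle2 h)))
  have hu : ((normalizedFactors (Ideal.span {α})).map (fun 𝔭 => χ (Fr j B 𝔭))).prod ∈ U := by
    rw [← QuotientGroup.ker_mk' U, MonoidHom.mem_ker, map_multiset_prod, Multiset.map_map]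
    have h2 := congrArg Φ.range.subtype hx
    rw [map_multiset_prod, Multiset.map_map, map_one] at h2
    exact h2
  rw [psi_eq j hatt (Nat.succ_ne_zero _) hα hd]
  exact lt_of_lt_of_le ((mem_ball h0 h1 _).1 hu) (min_le_left _ _)

end

end Vale.Agent.P022.H542
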