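import Vale.Agent.P022.H542.Appl
import Vale.Agent.P022.H651.OneM
import Vale.Agent.P022.H626.Unit

/-! # P022-CFT, [APPL], second part: one tame conductor, and the sign at the real places
(helper542) -/

open NumberField UniqueFactorizationMonoid Module

noncomputable section

namespace Vale.Agent.P022.H542

open Vale.Agent.P022 Vale.Agent.P022.H20 Vale.Agent.P022.H916

section

variable {K : Type} [Field K] [NumberField K] (j : K →+* Qb)

omit [NumberField K] in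
include j in
lemma two_ndvd : ¬ ((2 : ℕ) : 𝓞 K) ∣ 1 := by
  rintro ⟨c, hc⟩
  obtain ⟨P, hP, h2⟩ := H916.exists_prime Nat.prime_two
  apply hP.one_notMem
  have h := congrArg (RingOfIntegers.mapRingHom j) hc
  rw [map_one, map_mul, map_natCast] at h
  rw [h]
  exact P.mul_mem_right _ h2

omit [NumberField K] in
include j in
lemma ne_zero_of_dvd {r m : ℕ} {α : 𝓞 K} (h : ((2 ^ (r + 1) * m : ℕ) : 𝓞 K) ∣ α - 1) :
    α ≠ 0 := by
  rintro rfl
  apply two_ndvd j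
  rw [zero_sub, dvd_neg] at h
  refine dvd_trans ?_ h
  exact Nat.cast_dvd_cast (Dvd.intro_left (2 ^ r * m) (by ring))

/-- one tame conductor -/
theorem fine {E : Type} [NontriviallyNormedField E] [NormedAlgebra ℚ_[2] E] [IsUltrametricDist E]
    (hA : ARTG j) {χ : GK j →* Eˣ} (hχ : Continuous χ) {P : ℕ} (hP : Odd P)
    {ψ : Ideal (𝓞 K) →* E} (hatt : Attached j χ ψ (2 * P)) :
    ∃ k₀ : ℕ, ∀ k : ℕ, k₀ ≤ k → ∀ ε : ℝ, 0 < ε → ∃ r : ℕ, ∀ α : 𝓞 K,
      ((2 ^ r * P ^ k : ℕ) : 𝓞 K) ∣ α - 1 → PosAt j χ (α : K) →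
      ‖ψ (Ideal.span {α}) - 1‖ < ε := by
  have hP0 : P ≠ 0 := by rintro rfl; simp at hP
  let f : 𝓞 K →* E := ψ.comp
    { toFun := fun α : 𝓞 K => Ideal.span {α}
      map_one' := by rw [Ideal.span_singleton_one, Ideal.one_eq_top]
      map_mul' := fun a b => by rw [Ideal.span_singleton_mul_span_singleton] }
  obtain ⟨k, hk⟩ := H651.one_m P hP (fun α : 𝓞 K => α ≠ 0 ∧ PosAt j χ (α : K))
    (fun α n h => ⟨pow_ne_zero n h.1, fun ι c hc hne σ hσ => by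
      have h1 : ((α ^ n : 𝓞 K) : K) = (α : K) ^ n := map_pow (algebraMap (𝓞 K) K) α n
      rw [h1, map_pow]
      exact pow_pos (h.2 ι c hc hne σ hσ) n⟩) f
    (fun ε hε => by
      obtain ⟨k, hk⟩ := crude j hA hχ (mul_ne_zero two_ne_zero hP0) hatt hε
      exact ⟨k, fun α hα hd => hk α hα.1 hd hα.2⟩)
  refine ⟨k + 1, fun k' hk' ε hε => ?_⟩
  obtain ⟨r, hr⟩ := hk ε hε
  refine ⟨r + 1, fun α hd hpos => hr α ⟨ne_zero_of_dvd j hd, hpos⟩ (dvd_trans ?_ hd)⟩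
  exact Nat.cast_dvd_cast (mul_dvd_mul (pow_dvd_pow 2 (Nat.le_succ _)) (pow_dvd_pow P hk'))

/-- **imaginary `K`** (no real places): one tame conductor `P ^ k` -/
theorem cont2 [NumberField.IsTotallyComplex K] {E : Type} [NontriviallyNormedField E]
    [NormedAlgebra ℚ_[2] E] [IsUltrametricDist E]
    (hA : ARTG j) {χ : GK j →* Eˣ} (hχ : Continuous χ) {P : ℕ} (hP : Odd P)
    {ψ : Ideal (𝓞 K) →* E} (hatt : Attached j χ ψ (2 * P)) :
    ∃ k₀ : ℕ, ∀ k : ℕ, k₀ ≤ k → ∀ ε : ℝ, 0 < ε → ∃ r : ℕ, ∀ α : 𝓞 K,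
      ((2 ^ r * P ^ k : ℕ) : 𝓞 K) ∣ α - 1 → ‖ψ (Ideal.span {α}) - 1‖ < ε := by
  obtain ⟨k₀, hk₀⟩ := fine j hA hχ hP hatt
  refine ⟨k₀, fun k hk ε hε => ?_⟩
  obtain ⟨r, hr⟩ := hk₀ k hk ε hε
  refine ⟨r, fun α hd => hr α hd ?_⟩
  intro ι c _ _ σ _
  exfalso
  have h := NumberField.IsTotallyComplex.isComplex
    (NumberField.InfinitePlace.mk ((algebraMap ℝ ℂ).comp σ))
  rw [← NumberField.InfinitePlace.not_isReal_iff_isComplex] at h
  apply h
  refine ⟨(algebraMap ℝ ℂ).comp σ, ?_, rfl⟩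
  rw [NumberField.ComplexEmbedding.isReal_iff]
  ext x
  simp [NumberField.ComplexEmbedding.conjugate]

/-! ### the quadratic character of `ℚ(i)` -/

lemma exists_I : ∃ I : 𝓞 Qb, I ^ 2 = -1 := by
  obtain ⟨z, hz⟩ := IsAlgClosed.exists_pow_nat_eq (-1 : Qb) two_pos
  have hzi : IsIntegral ℤ z := IsIntegral.of_pow two_pos (by rw [hz]; exact isIntegral_one.neg)
  obtain ⟨y, hy⟩ : ∃ y : 𝓞 Qb, (y : Qb) = z := ⟨⟨z, hzi⟩, rfl⟩
  refine ⟨y, ?_⟩
  apply RingOfIntegers.ext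
  have h1 : ((y ^ 2 : 𝓞 Qb) : Qb) = (y : Qb) ^ 2 := map_pow (algebraMap (𝓞 Qb) Qb) y 2
  rw [h1, hy, hz]
  simp

/-- a square root of `-1` -/
def I0 : 𝓞 Qb := exists_I.choose

lemma I0_sq : I0 ^ 2 = -1 := exists_I.choose_spec

lemma I0_ne : I0 ≠ -I0 := by
  intro h
  have h1 : (2 : 𝓞 Qb) * I0 = 0 := by linear_combination h
  rcases mul_eq_zero.1 h1 with h2 | h2
  · exact two_ne_zero h2
  · have := I0_sq
    rw [h2] at this
    simp at this

lemma smul_I0 (g : GQ) : g • I0 = I0 ∨ g • I0 = -I0 := by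
  have h : (g • I0) ^ 2 = I0 ^ 2 := by
    rw [← smul_pow', I0_sq, smul_neg, smul_one]
  exact sq_eq_sq_iff_eq_or_eq_neg.1 h

open Classical in
/-- the character of `ℚ(i)` -/
def sg : GQ →* ℤˣ where
  toFun g := if g • I0 = I0 then 1 else -1
  map_one' := by rw [if_pos (one_smul _ _)]
  map_mul' g h := by
    have hm := mul_smul g h I0
    rcases smul_I0 g with h1 | h1 <;> rcases smul_I0 h with h2 | h2
    · have h3 : (g * h) • I0 = I0 := by rw [hm, h2, h1]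
      simp only [h1, h2, h3, if_true, one_mul]
    · have h3 : (g * h) • I0 = -I0 := by rw [hm, h2, smul_neg, h1]
      simp only [h1, h2, h3, I0_ne.symm, if_true, if_false, one_mul]
    · have h3 : (g * h) • I0 = -I0 := by rw [hm, h2, h1]
      simp only [h1, h2, h3, I0_ne.symm, if_true, if_false, mul_one]
    · have h3 : (g * h) • I0 = I0 := by rw [hm, h2, smul_neg, h1, neg_neg]
      simp only [h1, h2, h3, I0_ne.symm, if_true, if_false]
      rfl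

lemma sg_pos {g : GQ} (h : g • I0 = I0) : sg g = 1 := if_pos h

lemma sg_neg {g : GQ} (h : g • I0 = -I0) : sg g = -1 :=
  if_neg (by rw [h]; exact I0_ne.symm)

lemma isOpen_sg : IsOpen (sg.ker : Set GQ) := by
  have hint : IsIntegral ℚ (I0 : Qb) := (I0.2).tower_top
  have : FiniteDimensional ℚ (IntermediateField.adjoin ℚ {(I0 : Qb)}) :=
    IntermediateField.adjoin.finiteDimensional hint
  refine Subgroup.isOpen_mono ?_
    (IntermediateField.fixingSubgroup_isOpen (IntermediateField.adjoin ℚ {(I0 : Qb)}))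
  intro g hg
  rw [IntermediateField.mem_fixingSubgroup_iff] at hg
  rw [MonoidHom.mem_ker]
  apply sg_pos
  apply RingOfIntegers.ext
  exact hg _ (IntermediateField.mem_adjoin_simple_self ℚ _)

/-- a homomorphism with open kernel is continuous -/
lemma cont_of_ker {G H : Type*} [Group G] [TopologicalSpace G] [IsTopologicalGroup G] [Group H]
    [TopologicalSpace H] (f : G →* H) (h : IsOpen (f.ker : Set G)) : Continuous f := by
  apply IsLocallyConstant.continuous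
  rw [IsLocallyConstant.iff_exists_open]
  intro x
  refine ⟨(fun y => x⁻¹ * y) ⁻¹' (f.ker : Set G), h.preimage (continuous_const.mul continuous_id),
    ?_, ?_⟩
  · simp
  · intro y hy
    have hy' : x⁻¹ * y ∈ f.ker := hy
    rw [MonoidHom.mem_ker, map_mul, map_inv, inv_mul_eq_one] at hy'
    exact hy'.symm

/-- congruences modulo a prime above an odd prime number separate `I0` and `-I0` -/
lemma two_notMem {ℓ : ℕ} (hℓ : ℓ.Prime) (h2 : ¬ ℓ ∣ 2) {P : Ideal (𝓞 Qb)} (hP : P.IsPrime)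
    (hℓP : (ℓ : 𝓞 Qb) ∈ P) : (2 : 𝓞 Qb) ∉ P := by
  intro h
  have hc : Nat.Coprime ℓ 2 := (Nat.Prime.coprime_iff_not_dvd hℓ).2 h2
  have h1 : IsCoprime (ℓ : ℤ) ((2 : ℕ) : ℤ) := Nat.isCoprime_iff_coprime.2 hc
  obtain ⟨a, b, hab⟩ := h1
  apply hP.one_notMem
  have h3 : (1 : 𝓞 Qb) = (a : 𝓞 Qb) * (ℓ : 𝓞 Qb) + (b : 𝓞 Qb) * 2 := by
    have := congrArg (Int.cast (R := 𝓞 Qb)) hab
    push_cast at this
    exact this.symm
  rw [h3]
  exact P.add_mem (P.mul_mem_left _ hℓP) (P.mul_mem_left _ h)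

lemma I0_notMem {P : Ideal (𝓞 Qb)} (hP : P.IsPrime) (h2 : (2 : 𝓞 Qb) ∉ P) :
    I0 - (-I0) ∉ P := by
  intro h
  have h1 : I0 - (-I0) = 2 * I0 := by ring
  rw [h1] at h
  rcases hP.mem_or_mem h with h | h
  · exact h2 h
  · apply hP.one_notMem
    have h3 : (1 : 𝓞 Qb) = -I0 * I0 := by
      have := I0_sq
      linear_combination this
    rw [h3]
    exact P.mul_mem_left _ h

lemma sg_inertia {P : Ideal (𝓞 Qb)} (hP : P.IsPrime) (h2 : (2 : 𝓞 Qb) ∉ P) {g : GQ}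
    (hg : ∀ x : 𝓞 Qb, g • x - x ∈ P) : sg g = 1 := by
  rcases smul_I0 g with h | h
  · exact sg_pos h
  · exfalso
    have h1 := hg I0
    rw [h] at h1
    apply I0_notMem hP h2
    have h3 : I0 - (-I0) = -(-I0 - I0) := by ring
    rw [h3]
    exact P.neg_mem h1

lemma I0_pow {q : ℕ} (hq : Odd q) : I0 ^ q = ((ZMod.χ₄ (q : ZMod 4) : ℤ) : 𝓞 Qb) * I0 := by
  have h4 : q % 4 = 1 ∨ q % 4 = 3 := Nat.odd_mod_four_iff.1 (Nat.odd_iff.1 hq)
  have hI4 : I0 ^ 4 = 1 := by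
    have : I0 ^ 4 = (I0 ^ 2) ^ 2 := by ring
    rw [this, I0_sq]; ring
  have h1 : I0 ^ q = I0 ^ (q % 4) := by
    conv_lhs => rw [← Nat.div_add_mod q 4, pow_add, pow_mul, hI4, one_pow, one_mul]
  rcases h4 with h | h
  · rw [h1, h, ZMod.χ₄_nat_one_mod_four h]; simp
  · rw [h1, h, ZMod.χ₄_nat_three_mod_four h]
    have : I0 ^ 3 = I0 ^ 2 * I0 := by ring
    rw [this, I0_sq]; simp

lemma sg_frob {P : Ideal (𝓞 Qb)} (hP : P.IsPrime) (h2 : (2 : 𝓞 Qb) ∉ P) {g : GQ} {q : ℕ}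
    (hq : Odd q) (hg : ∀ x : 𝓞 Qb, g • x - x ^ q ∈ P) :
    ((sg g : ℤˣ) : ℤ) = ZMod.χ₄ (q : ZMod 4) := by
  have h4 : q % 4 = 1 ∨ q % 4 = 3 := Nat.odd_mod_four_iff.1 (Nat.odd_iff.1 hq)
  have h1 := hg I0
  rw [I0_pow hq] at h1
  rcases h4 with h | h
  · rw [ZMod.χ₄_nat_one_mod_four h] at h1 ⊢
    rcases smul_I0 g with h3 | h3
    · rw [sg_pos h3]; rfl
    · exfalso
      rw [h3] at h1
      apply I0_notMem hP h2
      have h5 : I0 - (-I0) = -(-I0 - ((1 : ℤ) : 𝓞 Qb) * I0) := by push_cast; ring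
      rw [h5]
      exact P.neg_mem h1
  · rw [ZMod.χ₄_nat_three_mod_four h] at h1 ⊢
    rcases smul_I0 g with h3 | h3
    · exfalso
      rw [h3] at h1
      apply I0_notMem hP h2
      have h5 : I0 - (-I0) = (I0 - ((-1 : ℤ) : 𝓞 Qb) * I0) := by push_cast; ring
      rw [h5]
      exact h1
    · rw [sg_neg h3]; rfl

/-- complex conjugations move `I0` -/
lemma sg_conj {c : GQ} (ι : Qb →+* ℂ) (hc : ∀ x, ι (c x) = starRingEnd ℂ (ι x)) : sg c = -1 := by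
  rcases smul_I0 c with h | h
  · exfalso
    have h1 : c (I0 : Qb) = (I0 : Qb) := congrArg (fun z : 𝓞 Qb => (z : Qb)) h
    have h2 := hc (I0 : Qb)
    rw [h1] at h2
    have h3 : (ι (I0 : Qb)) ^ 2 = -1 := by
      rw [← map_pow]
      have h4 : (I0 : Qb) ^ 2 = -1 := by
        have := congrArg (fun z : 𝓞 Qb => (z : Qb)) I0_sq
        simpa using this
      rw [h4]; simp
    obtain ⟨t, ht⟩ := Complex.conj_eq_iff_real.1 h2.symm
    rw [ht] at h3
    have h5 : (t ^ 2 : ℝ) = -1 := by exact_mod_cast h3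
    nlinarith [sq_nonneg t]
  · exact sg_neg h

/-- `sg` with values in a field, on `G_K` -/
def om (E : Type) [Field E] : GK j →* Eˣ :=
  ((Units.map (Int.castRingHom E).toMonoidHom).comp sg).comp (GK j).subtype

omit [NumberField K] in
lemma om_coe (E : Type) [Field E] (g : GK j) :
    ((om j E g : Eˣ) : E) = (((sg (g : GQ) : ℤˣ) : ℤ) : E) := rfl

omit [NumberField K] in
lemma cont_om (E : Type) [NontriviallyNormedField E] : Continuous (om j E) := by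
  refine cont_of_ker (om j E) ?_
  refine Subgroup.isOpen_mono (H₁ := (sg.ker).subgroupOf (GK j)) ?_
    (isOpen_sg.preimage continuous_subtype_val)
  intro g hg
  rw [Subgroup.mem_subgroupOf, MonoidHom.mem_ker] at hg
  rw [MonoidHom.mem_ker]
  apply Units.ext
  rw [om_coe, hg]; simp

/-- the twist `ψ(𝔞) χ₋₄(N 𝔞)` -/
def twist {E : Type} [Field E] (ψ : Ideal (𝓞 K) →* E) : Ideal (𝓞 K) →* E where
  toFun 𝔞 := ψ 𝔞 * ((ZMod.χ₄ ((Ideal.absNorm 𝔞 : ℕ) : ZMod 4) : ℤ) : E)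
  map_one' := by
    rw [map_one ψ, map_one Ideal.absNorm, Nat.cast_one, map_one, Int.cast_one, mul_one]
  map_mul' a b := by
    rw [map_mul, map_mul, Nat.cast_mul, map_mul, Int.cast_mul]; ring

lemma att_twist {E : Type} [Field E] {χ : GK j →* Eˣ} {ψ : Ideal (𝓞 K) →* E} {P : ℕ}
    (hatt : Attached j χ ψ (2 * P)) : Attached j (χ * om j E) (twist ψ) (2 * P) := by
  intro ℓ hℓ hB Q hQ hℓQ g
  have hℓ2 : ¬ ℓ ∣ 2 := fun h => hB (h.mul_right _)
  have h2 := two_notMem hℓ hℓ2 hQ hℓQ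
  obtain ⟨h3, h4⟩ := hatt ℓ hℓ hB Q hQ hℓQ g
  constructor
  · intro hg
    rw [MonoidHom.mul_apply, h3 hg, one_mul]
    apply Units.ext
    rw [om_coe, sg_inertia hQ h2 hg]; simp
  · intro hg
    have hodd : Odd (Ideal.absNorm (below j Q)) := by
      have hd : Ideal.absNorm (below j Q) ∣ ℓ ^ Module.finrank ℤ (𝓞 K) := by
        rw [← Ideal.absNorm_span_natCast]
        apply Ideal.absNorm_dvd_absNorm_of_le
        rw [Ideal.span_singleton_le_iff_mem]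
        exact l_mem_below j hℓQ
      have ho : Odd ℓ := by
        rcases hℓ.eq_two_or_odd' with h | h
        · exact absurd (h ▸ dvd_rfl) hℓ2
        · exact h
      exact Odd.of_dvd_nat ho.pow hd
    rw [MonoidHom.mul_apply, Units.val_mul, h4 hg, om_coe, sg_frob hQ h2 hodd hg]
    rfl

/-! ### the real case -/

omit [NumberField K] in
/-- all real embeddings of a real quadratic field -/
lemma emb_two [NumberField K] (h2 : finrank ℚ K = 2) {σ₁ σ₂ : K →+* ℝ} (hne : σ₁ ≠ σ₂)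
    (σ : K →+* ℝ) : σ = σ₁ ∨ σ = σ₂ := by
  by_cases h : σ = σ₁
  · exact Or.inl h
  · right
    have key : ∀ x : 𝓞 K, σ (x : K) = σ₂ (x : K) := by
      intro x
      by_cases hx : x = 0
      · subst hx; simp
      · have h3 := H626.emb_norm h2 hne x
        have h4 := H626.emb_norm h2 (Ne.symm h) x
        exact mul_left_cancel₀ (H626.emb_ne σ₁ hx) (h4.trans h3.symm)
    apply IsLocalization.ringHom_ext (nonZeroDivisors (𝓞 K))
    ext x
    exact key x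

/-- an integer of `K` positive at `σ₁` and negative at `σ₂` -/
lemma exists_sgn {σ₁ σ₂ : K →+* ℝ} (hne : σ₁ ≠ σ₂) :
    ∃ x : 𝓞 K, 0 < σ₁ (x : K) ∧ σ₂ (x : K) < 0 := by
  have h1 : ∃ x : 𝓞 K, σ₁ (x : K) ≠ σ₂ (x : K) := by
    by_contra h
    push Not at h
    apply hne
    apply IsLocalization.ringHom_ext (nonZeroDivisors (𝓞 K))
    ext x
    exact h x
  have h2 : ∃ x : 𝓞 K, σ₂ (x : K) < σ₁ (x : K) := by
    obtain ⟨x, hx⟩ := h1
    rcases lt_or_gt_of_ne hx with h | h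
    · refine ⟨-x, ?_⟩
      simpa using h
    · exact ⟨x, h⟩
  obtain ⟨x, hx⟩ := h2
  obtain ⟨q, hq1, hq2⟩ := exists_rat_btwn hx
  have hd : (0 : ℝ) < (q.den : ℝ) := by exact_mod_cast q.den_pos
  have hqd : (q : ℝ) * q.den = q.num := by exact_mod_cast Rat.mul_den_eq_num q
  refine ⟨(q.den : 𝓞 K) * x - (q.num : 𝓞 K), ?_, ?_⟩
  · have : σ₁ (((q.den : 𝓞 K) * x - (q.num : 𝓞 K) : 𝓞 K) : K) =
        q.den * σ₁ (x : K) - q.num := by
      simp
    rw [this, ← hqd]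
    nlinarith
  · have : σ₂ (((q.den : 𝓞 K) * x - (q.num : 𝓞 K) : 𝓞 K) : K) =
        q.den * σ₂ (x : K) - q.num := by
      simp
    rw [this, ← hqd]
    nlinarith

/-- signs with a congruence condition -/
lemma exists_sgn_cong {σ₁ σ₂ : K →+* ℝ} (hne : σ₁ ≠ σ₂) {n : ℕ} (hn : n ≠ 0) :
    ∃ x : 𝓞 K, (n : 𝓞 K) ∣ x - 1 ∧ 0 < σ₁ (x : K) ∧ σ₂ (x : K) < 0 := by
  obtain ⟨x, hx1, hx2⟩ := exists_sgn hne
  obtain ⟨t, ht⟩ := exists_nat_gt (1 / (-σ₂ (x : K)))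
  have hpos : 0 < -σ₂ (x : K) := by linarith
  have ht' : 1 < t * (-σ₂ (x : K)) := by
    rwa [div_lt_iff₀ hpos] at ht
  have hn1 : (1 : ℝ) ≤ n := by exact_mod_cast Nat.one_le_iff_ne_zero.2 hn
  refine ⟨1 + (n : 𝓞 K) * ((t : 𝓞 K) * x), ⟨(t : 𝓞 K) * x, by ring⟩, ?_, ?_⟩
  · have : σ₁ ((1 + (n : 𝓞 K) * ((t : 𝓞 K) * x) : 𝓞 K) : K) =
        1 + n * (t * σ₁ (x : K)) := by simp
    rw [this]
    positivity
  · have : σ₂ ((1 + (n : 𝓞 K) * ((t : 𝓞 K) * x) : 𝓞 K) : K) =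
        1 + n * (t * σ₂ (x : K)) := by simp
    rw [this]
    nlinarith

lemma norm_cong (n : ℕ) (a b : 𝓞 K) (h : (n : 𝓞 K) ∣ a - b) :
    (n : ℤ) ∣ Algebra.norm ℤ a - Algebra.norm ℤ b := by
  classical
  obtain ⟨c, hc⟩ := h
  let B := Module.Free.chooseBasis ℤ (𝓞 K)
  rw [Algebra.norm_eq_matrix_det B, Algebra.norm_eq_matrix_det B,
    ← ZMod.intCast_eq_intCast_iff_dvd_sub]
  have h1 : ∀ x : 𝓞 K, (((Algebra.leftMulMatrix B x).det : ℤ) : ZMod n) =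
      ((Algebra.leftMulMatrix B x).map (Int.castRingHom (ZMod n))).det := by
    intro x
    rw [← RingHom.mapMatrix_apply, ← RingHom.map_det]
    rfl
  rw [h1, h1]
  have h2 : a = b + (n : ℤ) • c := by
    have : a = b + (n : 𝓞 K) * c := by rw [← hc]; ring
    rw [this]; simp
  congr 1
  rw [h2, map_add, map_smul]
  ext i j
  rw [Matrix.map_apply, Matrix.map_apply, Matrix.add_apply, Matrix.smul_apply, smul_eq_mul,
    map_add, map_mul]
  simp

/-- `χ₋₄(N(α))` for `α ≡ 1 mod 4`: the sign of the norm -/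
lemma chi_norm (h2 : finrank ℚ K = 2) {σ₁ σ₂ : K →+* ℝ} (hne : σ₁ ≠ σ₂) {α : 𝓞 K}
    (hα : ((4 : ℕ) : 𝓞 K) ∣ α - 1) (hpos : 0 < σ₂ (α : K)) :
    (ZMod.χ₄ ((Ideal.absNorm (Ideal.span {α}) : ℕ) : ZMod 4) : ℤ) =
      if 0 < σ₁ (α : K) then 1 else -1 := by
  have h1 := norm_cong 4 α 1 hα
  rw [map_one] at h1
  have h3 := H626.emb_norm h2 hne α
  rw [Ideal.absNorm_span_singleton]
  have hα0 : α ≠ 0 := by
    rintro rfl
    simp at hpos
  have hne1 := H626.emb_ne σ₁ hα0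
  split_ifs with h
  · have h4 : 0 < Algebra.norm ℤ α := by
      have : (0 : ℝ) < ((Algebra.norm ℤ α : ℤ) : ℝ) := by rw [← h3]; exact mul_pos h hpos
      exact_mod_cast this
    apply ZMod.χ₄_nat_one_mod_four
    omega
  · have h4 : Algebra.norm ℤ α < 0 := by
      have : ((Algebra.norm ℤ α : ℤ) : ℝ) < 0 := by
        rw [← h3]
        exact mul_neg_of_neg_of_pos (lt_of_le_of_ne (not_lt.1 h) hne1) hpos
      exact_mod_cast this
    apply ZMod.χ₄_nat_three_mod_four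
    omega

/-- **real `K`**: `ψ((α))` is close to the sign of `σ₁ α` if the complex conjugations at `σ₁` act
by `-1` and those at `σ₂` trivially; one tame conductor `P ^ k` -/
theorem contR (h2 : finrank ℚ K = 2) {σ₁ σ₂ : K →+* ℝ} (hne : σ₁ ≠ σ₂)
    {E : Type} [NontriviallyNormedField E] [NormedAlgebra ℚ_[2] E] [IsUltrametricDist E]
    (hA : ARTG j) {χ : GK j →* Eˣ} (hχ : Continuous χ) {P : ℕ} (hP : Odd P)
    {ψ : Ideal (𝓞 K) →* E} (hatt : Attached j χ ψ (2 * P))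
    (hc₁ : ∀ (ι : Qb →+* ℂ) (c : GK j), (∀ x, ι ((c : GQ) x) = starRingEnd ℂ (ι x)) →
      (∀ x, ι (j x) = (σ₁ x : ℂ)) → χ c = -1)
    (hc₂ : ∀ (ι : Qb →+* ℂ) (c : GK j), (∀ x, ι ((c : GQ) x) = starRingEnd ℂ (ι x)) →
      (∀ x, ι (j x) = (σ₂ x : ℂ)) → χ c = 1) :
    ∃ k₀ : ℕ, ∀ k : ℕ, k₀ ≤ k → ∀ ε : ℝ, 0 < ε → ∃ M : ℕ, ∀ α : 𝓞 K,
      ((2 ^ M * P ^ k : ℕ) : 𝓞 K) ∣ α - 1 →
      ‖ψ (Ideal.span {α}) - (if 0 < σ₁ (α : K) then 1 else -1)‖ < ε := by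
  have hP0 : P ≠ 0 := by rintro rfl; simp at hP
  -- positivity at `σ₁` is enough for `χ`
  have hp1 : ∀ α : 𝓞 K, 0 < σ₁ (α : K) → PosAt j χ (α : K) := by
    intro α hα ι c hc hχc σ hσ
    rcases emb_two h2 hne σ with rfl | rfl
    · exact hα
    · exact absurd (hc₂ ι c hc hσ) hχc
  -- positivity at `σ₂` is enough for the twist
  have hp2 : ∀ α : 𝓞 K, 0 < σ₂ (α : K) → PosAt j (χ * om j E) (α : K) := by
    intro α hα ι c hc hχc σ hσ
    rcases emb_two h2 hne σ with rfl | rfl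
    · exfalso
      apply hχc
      rw [MonoidHom.mul_apply, hc₁ ι c hc hσ]
      apply Units.ext
      rw [Units.val_mul, om_coe, sg_conj ι hc]
      simp
    · exact hα
  obtain ⟨k₁, hk₁⟩ := fine j hA hχ hP hatt
  obtain ⟨k₂, hk₂⟩ := fine j hA (hχ.mul (cont_om j E)) hP (att_twist j hatt)
  refine ⟨max k₁ k₂, fun k hk ε hε => ?_⟩
  have hε' : 0 < min ε 1 := lt_min hε one_pos
  obtain ⟨r₁, hr₁⟩ := hk₁ k ((le_max_left _ _).trans hk) (min ε 1) hε'
  obtain ⟨r₂, hr₂⟩ := hk₂ k ((le_max_right _ _).trans hk) (min ε 1) hε'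
  set M := max r₁ r₂ + 2 with hM
  have hd1 : ∀ α : 𝓞 K, ((2 ^ M * P ^ k : ℕ) : 𝓞 K) ∣ α - 1 →
      ((2 ^ r₁ * P ^ k : ℕ) : 𝓞 K) ∣ α - 1 := fun α h =>
    dvd_trans (Nat.cast_dvd_cast (mul_dvd_mul (pow_dvd_pow 2 (by omega)) dvd_rfl)) h
  have hd2 : ∀ α : 𝓞 K, ((2 ^ M * P ^ k : ℕ) : 𝓞 K) ∣ α - 1 →
      ((2 ^ r₂ * P ^ k : ℕ) : 𝓞 K) ∣ α - 1 := fun α h =>
    dvd_trans (Nat.cast_dvd_cast (mul_dvd_mul (pow_dvd_pow 2 (by omega)) dvd_rfl)) h
  have hd4 : ∀ α : 𝓞 K, ((2 ^ M * P ^ k : ℕ) : 𝓞 K) ∣ α - 1 → ((4 : ℕ) : 𝓞 K) ∣ α - 1 :=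
    fun α h => dvd_trans (Nat.cast_dvd_cast (by
      rw [hM, pow_add]
      exact Dvd.intro_left (2 ^ max r₁ r₂ * P ^ k) (by ring))) h
  -- `σ₂ α > 0`
  have key : ∀ α : 𝓞 K, ((2 ^ M * P ^ k : ℕ) : 𝓞 K) ∣ α - 1 → 0 < σ₂ (α : K) →
      ‖ψ (Ideal.span {α}) - (if 0 < σ₁ (α : K) then 1 else -1)‖ < min ε 1 := by
    intro α hd hpos
    have h := hr₂ α (hd2 α hd) (hp2 α hpos)
    have h3 : twist ψ (Ideal.span {α}) =
        ψ (Ideal.span {α}) * (if 0 < σ₁ (α : K) then 1 else -1) := by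
      change ψ (Ideal.span {α}) *
        ((ZMod.χ₄ ((Ideal.absNorm (Ideal.span {α}) : ℕ) : ZMod 4) : ℤ) : E) = _
      rw [chi_norm h2 hne (hd4 α hd) hpos]
      push_cast
      rfl
    rw [h3] at h
    split_ifs with h5
    · rw [if_pos h5, mul_one] at h
      exact h
    · rw [if_neg h5] at h
      have h6 : ψ (Ideal.span {α}) - -1 = -(ψ (Ideal.span {α}) * -1 - 1) := by ring
      rw [h6, norm_neg]
      exact h
  refine ⟨M, fun α hd => ?_⟩
  have hα0 : α ≠ 0 := by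
    refine ne_zero_of_dvd j (r := max r₁ r₂ + 1) (m := P ^ k) ?_
    exact hd
  rcases lt_or_gt_of_ne (H626.emb_ne σ₂ hα0) with hneg | hpos
  · -- `σ₂ α < 0`: multiply by an element of sign `(+, -)`
    obtain ⟨γ, hγ, hγ1, hγ2⟩ := exists_sgn_cong hne (n := 2 ^ M * P ^ k)
      (mul_ne_zero (pow_ne_zero _ two_ne_zero) (pow_ne_zero _ hP0))
    have hαγ : ((2 ^ M * P ^ k : ℕ) : 𝓞 K) ∣ α * γ - 1 := by
      have : α * γ - 1 = α * (γ - 1) + (α - 1) := by ring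
      rw [this]
      exact dvd_add (hγ.mul_left _) hd
    have hm2 : σ₂ ((α * γ : 𝓞 K) : K) = σ₂ (α : K) * σ₂ (γ : K) := by simp
    have hm1 : σ₁ ((α * γ : 𝓞 K) : K) = σ₁ (α : K) * σ₁ (γ : K) := by simp
    have h3 := key (α * γ) hαγ (by rw [hm2]; exact mul_pos_of_neg_of_neg hneg hγ2)
    have h4 := hr₁ γ (hd1 γ hγ) (hp1 γ hγ1)
    have hiff : (0 < σ₁ ((α * γ : 𝓞 K) : K)) ↔ 0 < σ₁ (α : K) := by
      rw [hm1]
      exact mul_pos_iff_of_pos_right hγ1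
    simp only [hiff] at h3
    rw [← Ideal.span_singleton_mul_span_singleton, map_mul] at h3
    set s : E := (if 0 < σ₁ (α : K) then 1 else -1) with hs
    have hs1 : ‖s‖ = 1 := by rw [hs]; split_ifs <;> simp
    have hg1 : ‖ψ (Ideal.span {γ})‖ = 1 := nrm1 (h4.trans_le (min_le_right _ _))
    have ha1 : ‖ψ (Ideal.span {α})‖ = 1 := by
      have h5 : ‖ψ (Ideal.span {α}) * ψ (Ideal.span {γ})‖ = 1 := by
        have h6 : ψ (Ideal.span {α}) * ψ (Ideal.span {γ}) =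
            (ψ (Ideal.span {α}) * ψ (Ideal.span {γ}) - s) + s := by ring
        rw [h6, IsUltrametricDist.norm_add_eq_max_of_norm_ne_norm (by
          rw [hs1]; exact (h3.trans_le (min_le_right _ _)).ne), hs1]
        exact max_eq_right (h3.trans_le (min_le_right _ _)).le
      rwa [norm_mul, hg1, mul_one] at h5
    have h7 : ψ (Ideal.span {α}) - s =
        -(ψ (Ideal.span {α}) * (ψ (Ideal.span {γ}) - 1)) +
          (ψ (Ideal.span {α}) * ψ (Ideal.span {γ}) - s) := by ring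
    rw [h7]
    refine lt_of_le_of_lt (IsUltrametricDist.norm_add_le_max _ _) (max_lt ?_ ?_)
    · rw [norm_neg, norm_mul, ha1, one_mul]
      exact h4.trans_le (min_le_left _ _)
    · exact h3.trans_le (min_le_left _ _)
  · exact (key α hd hpos).trans_le (min_le_left _ _)

end

end Vale.Agent.P022.H542
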